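import Vale.Agent.P281.H283.KD.Mk
import Vale.Agent.P281.H716.KL.IfaceG

/-! P281, block M1 (`MassPart1`): no mass on the zero set of a second function `ρ₁`. -/

open scoped Manifold ContDiff Topology ComplexOrder
open Set Filter Vale.Agent.P272.K Vale.Agent.P272.K.AMP Vale.Agent.P299
open Vale.Agent.P299.H882
open Vale.Agent.P272.K.INT (intX IsClosedForm)

set_option linter.all false

noncomputable section

namespace Vale.Agent.P281.H283.KD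

open Vale.Agent.P281.H167.GM Vale.Agent.P281.H283.GME Vale.Agent.P281.H713.KD

/-- **Block M1** -/
theorem massPart1 (c0 : C0Part) (int : IntPart) (bd : BdPart) :
    Vale.Agent.P281.H716.KL.MassPart1 := by
  intro n M X _ _ _ _ _ _ G hG φ hφ m hm ρ hρ hρ0 hρne Dv r R hbd dl hdl C hcurv ρ₁ hρ₁ hρ₁0 hρ₁ne
    C₁ hcurv₁ κ hκ
  obtain ⟨x₁, hx₁⟩ := hρne
  obtain ⟨x₂, hx₂⟩ := hρ₁ne
  haveI : Nonempty X := ⟨x₁⟩
  have hGH := hG.toIsHermitian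
  obtain ⟨hrs, -, -⟩ := bd n M X G hG Dv r R hbd
  have hr0 : ∀ i x, 0 ≤ r i x := bd_nonneg hbd
  have hr1 : ∀ i x, r i x ≤ 1 := hbd.le_one
  have hdl0 : ∀ i, 0 ≤ dl i := fun i => (hdl i).1
  -- exponents
  obtain ⟨dm, hdm0, hdm1, hdm⟩ : ∃ dm : ℝ, 0 ≤ dm ∧ dm < 1 ∧ ∀ i, dl i ≤ dm := by
    rcases isEmpty_or_nonempty (Fin M) with hM | hM
    · exact ⟨0, le_rfl, one_pos, fun i => (hM.false i).elim⟩
    · obtain ⟨i₀, hi₀⟩ := Finite.exists_max dl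
      exact ⟨dl i₀, (hdl i₀).1, (hdl i₀).2, hi₀⟩
  set a : ℝ := 2 / (1 + dm) with ha
  have ha1 : 1 < a := by rw [ha, lt_div_iff₀ (by linarith)]; linarith
  set a' : ℝ := a * dm with ha'
  have ha'1 : a' < 1 := by
    rw [ha', ha, div_mul_eq_mul_div, div_lt_one (by linarith)]
    linarith
  have haa : ∀ i, a * dl i ≤ a' := fun i => mul_le_mul_of_nonneg_left (hdm i) (by linarith)
  obtain ⟨Kint, hKint⟩ := int n M X G hG Dv r R hbd a' ha'1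
  -- normalization
  obtain ⟨E0, hE0, hE0'⟩ := exists_E0 hG hφ hm hρ hρ0 hx₁ hdl0 hrs hr0 hr1
  obtain ⟨B, hB⟩ := exists_B hG hφ m hρ hρ0 hdl0 hrs hr0 hr1 ha1 ha'1 haa hKint hE0
  obtain ⟨C0', hC0'⟩ := c0 n X G hG a B ha1
  set C0 : ℝ := max C0' 0 with hC0
  have hC00 : 0 ≤ C0 := le_max_right _ _
  -- `ρ₁`
  have cρ : Continuous ρ₁ := sm_continuous hρ₁
  obtain ⟨xm, -, hxm⟩ := isCompact_univ.exists_isMaxOn univ_nonempty cρ.continuousOn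
  have hρR : ∀ x, ρ₁ x ≤ ρ₁ xm := fun x => hxm (mem_univ x)
  set Λρ : ℝ := |Real.log (ρ₁ xm + 1)| + |Real.log (ρ₁ x₂)| with hΛρ
  have hΛρ0 : 0 ≤ Λρ := by positivity
  have hΛρ1 : ∀ δ : ℝ, 0 < δ → δ ≤ 1 → ∀ x, Real.log (ρ₁ x + δ) ≤ Λρ := fun δ hδ hδ1 x => by
    have h1 : Real.log (ρ₁ x + δ) ≤ Real.log (ρ₁ xm + 1) :=
      Real.log_le_log (by have := hρ₁0 x; linarith) (by have := hρR x; linarith)
    have h2 := le_abs_self (Real.log (ρ₁ xm + 1))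
    have h3 := abs_nonneg (Real.log (ρ₁ x₂))
    linarith
  have hΛρ2 : ∀ δ : ℝ, 0 < δ → -Λρ ≤ Real.log (ρ₁ x₂ + δ) := fun δ hδ => by
    have h1 : Real.log (ρ₁ x₂) ≤ Real.log (ρ₁ x₂ + δ) := Real.log_le_log hx₂ (by linarith)
    have h2 := neg_abs_le (Real.log (ρ₁ x₂))
    have h3 := abs_nonneg (Real.log (ρ₁ xm + 1))
    linarith
  obtain ⟨Kρ, hKρ0, hKρ⟩ := exists_main hG (abs_nonneg C₁) Λρ ha1 B C0 hC00
  obtain ⟨δ₀, hδ₀, hsm⟩ := exists_small Kρ κ hKρ0 hκ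
  refine ⟨min δ₀ 1, lt_min hδ₀ one_pos, fun δ δ' ε hδ hδle hδ' hδ'le hε hεle U c hU hg hlog => ?_⟩
  have hδ1 : δ ≤ 1 := hδle.trans (min_le_right _ _)
  have hε1 : ε ≤ 1 := hεle.trans (min_le_right _ _)
  obtain ⟨hδ'1, hδ'K⟩ := hsm δ' hδ' (hδ'le.trans (min_le_left _ _))
  have hf := fK_eq hGH hφ hlog
  have hfs := smooth_fK hGH hφ m hρ hρ0 hδ dl hrs hr0 hε c
  have hEc := hE0' δ ε hδ hε hε1 U c hU hg hf
  have hBc := hB δ ε hδ hδ1 hε hε1 c hEc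
  have hosc : ∀ x y, U x - U y ≤ C0 := fun x y =>
    (hC0' U _ hU hfs hg hf hBc x y).trans (le_max_left _ _)
  have hmain := hKρ U _ (fun x => Real.log (ρ₁ x + δ')) hU hfs
    (sm_log (sm_add hρ₁ (smoothFn_const δ')) fun y => by have := hρ₁0 y; linarith) hg hf hBc hosc
    (fun e x hx => by
      have h1 := hcurv₁ δ' hδ' e x hx
      have h2 : hess (fun y => Real.log (ρ₁ y + δ')) e (e x) + ((|C₁| : ℝ) : ℂ) • G e (e x) =
          (hess (fun y => Real.log (ρ₁ y + δ')) e (e x) + (C₁ : ℂ) • G e (e x)) +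
            ((|C₁| - C₁ : ℝ) : ℂ) • G e (e x) := by
        push_cast
        module
      rw [h2]
      exact h1.add (smul_psd' (hG.posDef e x hx).posSemidef
        (sub_nonneg.2 (le_abs_self C₁))))
    (hΛρ1 δ' hδ' hδ'1.le) ⟨x₂, hΛρ2 δ' hδ'⟩
  exact small_le hG hg hρ₁ hρ₁0 hδ' hδ'1 hΛρ0 (hΛρ1 δ' hδ' hδ'1.le) hmain hδ'K

end Vale.Agent.P281.H283.KD
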